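import Vale.Agent.P151.TC.H256.Core
import Vale.Agent.P151.TC.H510.Frame2
import Vale.Agent.P151.H990.TC

/-!
# The composition: the quasi-triangle inequality, the drop of the tail, and the seam
-/

set_option autoImplicit false

open Finset SimpleGraph

namespace Vale.Agent.P151.TC.H256

open Vale.Agent.P151 Vale.Agent.P151.QP Vale.Agent.P151.R2.H279

universe u

/-- The quasi-triangle inequality. -/
theorem tcs (V : Type u) [DecidableEq V] : TCS V := by
  refine ⟨10, by norm_num, ?_⟩
  intro p h0 h1 Λ n x y z
  have h := H990.PD_triangle h0 h1 Λ n x y z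
  rw [I1_big] at h
  rw [mul_comm]
  exact h

/-- **The seam.** -/
theorem seam : FULL.Seam :=
  TC.seam_of_drop2 fun V _ _ _G _ hG R hR hAm => drop2 (tcs V) hG (R := R) hR hAm

end Vale.Agent.P151.TC.H256

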