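import Vale.Agent.P151.TC.H256.Ladder
import Vale.Agent.P151.QP.DropCore
import Vale.Agent.P151.QP.DropFol
import Vale.Agent.P151.QP.Ladder
import Vale.Agent.P151.QP.Ladder0
import Vale.Agent.P151.QP.Window
import Vale.Agent.P151.QP.Var
import Vale.Agent.P151.QP.Th
import Vale.Agent.P151.H820.Heat

/-!
# The drop of the tail from the quasi-triangle inequality
-/

set_option autoImplicit false
set_option linter.unusedSectionVars false

open Finset SimpleGraph

namespace Vale.Agent.P151.TC.H256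

open Vale.Agent.P151 Vale.Agent.P151.QP Vale.Agent.P151.R2.H279

universe u
variable {V : Type u} [DecidableEq V] {G : SimpleGraph V} [G.LocallyFinite]

/-- Elementary inequalities for `m = ⌊√n⌋`. -/
lemma sqrt_facts {n : ℕ} (hn : 4 ≤ n) :
    2 ≤ Nat.sqrt n ∧ Nat.sqrt n ≤ n ∧ 0 < Real.sqrt (Real.sqrt n) ∧
      1 / Real.sqrt (Nat.sqrt n : ℕ) ≤ 2 / Real.sqrt (Real.sqrt n) ∧
      1 / (n : ℝ) ≤ 1 / Real.sqrt (Real.sqrt n) ∧
      ((Nat.sqrt n : ℕ) : ℝ) / n ≤ 1 / Real.sqrt (Real.sqrt n) := by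
  have hnR : (4 : ℝ) ≤ n := by exact_mod_cast hn
  have hn0 : (0 : ℝ) < n := by linarith
  have hm2 : 2 ≤ Nat.sqrt n := by rw [Nat.le_sqrt]; omega
  have hm : Nat.sqrt n * Nat.sqrt n ≤ n := Nat.sqrt_le n
  have hm' : n < (Nat.sqrt n + 1) * (Nat.sqrt n + 1) := Nat.lt_succ_sqrt n
  generalize Nat.sqrt n = m at *
  set s : ℝ := Real.sqrt n with hs
  have hs0 : 0 < s := Real.sqrt_pos.2 hn0
  have hss : s * s = n := Real.mul_self_sqrt hn0.le
  have hs2 : 2 ≤ s := by
    apply Real.le_sqrt_of_sq_le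
    linarith
  set q : ℝ := Real.sqrt s with hq
  have hq0 : 0 < q := Real.sqrt_pos.2 hs0
  have hqq : q * q = s := Real.mul_self_sqrt hs0.le
  have hq1 : 1 ≤ q := by
    rw [hq, Real.one_le_sqrt]; linarith
  have hqs : q ≤ s := by nlinarith
  have hsn : s ≤ n := by nlinarith
  have hmR : (m : ℝ) ≤ s := by
    apply Real.le_sqrt_of_sq_le
    rw [sq]
    exact_mod_cast hm
  have h2 : (2 : ℝ) ≤ m := by exact_mod_cast hm2
  have h2' : (0 : ℝ) < m := by linarith
  have hmR2 : s ≤ 2 * m := by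
    have h1 : s ≤ m + 1 := by
      apply (Real.sqrt_le_left (by positivity)).2
      rw [sq]
      exact_mod_cast hm'.le
    linarith
  refine ⟨hm2, le_trans (Nat.le_mul_self m) hm, hq0, ?_, ?_, ?_⟩
  · have h3 : q ≤ 2 * Real.sqrt m := by
      have h4 : q ≤ Real.sqrt (2 * m) := Real.sqrt_le_sqrt hmR2
      have h5 : Real.sqrt (2 * m) ≤ Real.sqrt (2 ^ 2 * m) := by
        apply Real.sqrt_le_sqrt
        linarith
      have h6 : Real.sqrt (2 ^ 2 * m) = 2 * Real.sqrt m := by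
        rw [Real.sqrt_mul (by norm_num), Real.sqrt_sq (by norm_num)]
      linarith
    rw [div_le_div_iff₀ (Real.sqrt_pos.2 h2') hq0]
    linarith
  · exact one_div_le_one_div_of_le hq0 (hqs.trans hsn)
  · rw [div_le_div_iff₀ hn0 hq0, one_mul]
    calc (m : ℝ) * q ≤ s * s :=
          mul_le_mul hmR hqs hq0.le hs0.le
      _ = n := hss

/-- The final computation. -/
lemma final_calc {c0 C C1 X W P E q nr mr Fc : ℝ} {J : ℕ} (hc0 : 0 < c0) (hC1 : 1 ≤ C1)
    (hCC1 : C1 ≤ C) (hCcc : 20 / c0 * C1 ≤ C) (hF0 : 0 ≤ Fc) (hnr : 4 ≤ nr) (hmr : 0 ≤ mr)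
    (hq0 : 0 < q) (hinv : 1 / nr ≤ 1 / q) (hmn : mr / nr ≤ 1 / q) (hXW : X ≤ W)
    (hwin : c0 / 2 * W ≤ 5 * (1 / nr ^ 3) * Fc / (1 / nr ^ 2) + P +
      (1 / nr + 1 / nr ^ 2 + 1 / nr) * mr * Fc)
    (hP : P ≤ C1 ^ (J + 1) / E * Fc) (hE : 1 / E ≤ 2 / q) :
    X ≤ C * C ^ J / q * Fc := by
  have hC1J : 1 ≤ C1 ^ (J + 1) := one_le_pow₀ hC1
  have hn0 : 0 < nr := by linarith
  have h2 : 5 * (1 / nr ^ 3) * Fc / (1 / nr ^ 2) = 5 * (1 / nr) * Fc := by
    field_simp
  have h3 : (1 / nr + 1 / nr ^ 2 + 1 / nr) * mr * Fc ≤ 3 * (1 / q) * Fc := by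
    apply mul_le_mul_of_nonneg_right _ hF0
    have h4 : 1 / nr ^ 2 ≤ 1 / nr := by
      apply one_div_le_one_div_of_le hn0
      nlinarith
    calc (1 / nr + 1 / nr ^ 2 + 1 / nr) * mr ≤ (1 / nr + 1 / nr + 1 / nr) * mr := by
          apply mul_le_mul_of_nonneg_right _ hmr
          linarith
      _ = 3 * (mr / nr) := by ring
      _ ≤ _ := by linarith
  have h7 : 5 * (1 / nr) * Fc ≤ 5 * (1 / q) * Fc := by
    apply mul_le_mul_of_nonneg_right _ hF0
    linarith
  have h8 : C1 ^ (J + 1) / E * Fc ≤ 2 * C1 ^ (J + 1) / q * Fc := by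
    apply mul_le_mul_of_nonneg_right _ hF0
    calc C1 ^ (J + 1) / E = C1 ^ (J + 1) * (1 / E) := by ring
      _ ≤ C1 ^ (J + 1) * (2 / q) := mul_le_mul_of_nonneg_left hE (by positivity)
      _ = _ := by ring
  rw [h2] at hwin
  have hmain : c0 / 2 * X ≤ (10 * C1 ^ (J + 1) / q) * Fc := by
    have h9 : c0 / 2 * X ≤ c0 / 2 * W := mul_le_mul_of_nonneg_left hXW (by positivity)
    have h10 : c0 / 2 * X ≤ 5 * (1 / q) * Fc + 2 * C1 ^ (J + 1) / q * Fc + 3 * (1 / q) * Fc :=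
      h9.trans (hwin.trans (add_le_add (add_le_add h7 (hP.trans h8)) h3))
    refine h10.trans ?_
    have h11 : 5 * (1 / q) * Fc + 2 * C1 ^ (J + 1) / q * Fc + 3 * (1 / q) * Fc =
        ((8 + 2 * C1 ^ (J + 1)) / q) * Fc := by ring
    rw [h11]
    apply mul_le_mul_of_nonneg_right _ hF0
    apply div_le_div_of_nonneg_right _ hq0.le
    linarith
  have hX2 : X ≤ 2 / c0 * ((10 * C1 ^ (J + 1) / q) * Fc) := by
    calc X = 2 / c0 * (c0 / 2 * X) := by field_simp
      _ ≤ _ := mul_le_mul_of_nonneg_left hmain (by positivity)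
  refine hX2.trans ?_
  rw [← mul_assoc]
  apply mul_le_mul_of_nonneg_right _ hF0
  have hC0 : 0 ≤ C := by linarith
  have e1 : 2 / c0 * (10 * C1 ^ (J + 1) / q) = (20 / c0 * C1) * (C1 ^ J / q) := by
    rw [pow_succ]; ring
  rw [e1, mul_div_assoc]
  apply mul_le_mul hCcc _ (by positivity) hC0
  apply div_le_div_of_nonneg_right _ hq0.le
  exact pow_le_pow_left₀ (by linarith) hCC1 J

open Classical in
theorem drop_core2 (hG : G.Connected) {d : ℕ} (hd1 : 1 ≤ d) (hd : ∀ v, G.degree v ≤ d)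
    (hT : TCS V) (hL0 : Stmts.Ladder0Stmt V) (hW : Stmts.WindowStmt V)
    (hH : Stmts.HeatStmt G d) (p0 c0 : ℝ) (hp0 : 0 < p0) (hc0 : 0 < c0) :
    ∃ C : ℝ, 2 ≤ C ∧ ∀ (p : ℝ) (n J r : ℕ), p0 ≤ p → p ≤ 1 →
      (∀ x, c0 ≤ phiB G n x p) → 4 ≤ n → 2 ^ J ≤ n →
      (∀ x, 8 * n ^ 3 ≤ (ballF G x r).card) → C * r ^ 2 * (1 + Real.log n) ≤ 2 ^ J →
      ∀ F : Finset V,
        ∑ o ∈ F.filter (fun o => ballF G o (n ^ 2) ⊆ F),
          Ex p (edgesIn G F) (ww (1 / (n : ℝ) ^ 2) (1 / n) o) ≤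
        C * C ^ J / Real.sqrt (Real.sqrt n) * F.card := by
  obtain ⟨C1, hC1, H1⟩ := ladder_iter2 hT hL0 hp0 hc0 d hd1
  obtain ⟨C2, hC2, H2⟩ := hH
  set C : ℝ := max (max C1 (3 * C2)) (max 2 (20 / c0 * C1)) with hC
  have hCC1 : C1 ≤ C := (le_max_left _ _).trans (le_max_left _ _)
  have hCC2 : 3 * C2 ≤ C := (le_max_right _ _).trans (le_max_left _ _)
  have hC2' : 2 ≤ C := (le_max_left _ _).trans (le_max_right _ _)
  have hCcc : 20 / c0 * C1 ≤ C := (le_max_right _ _).trans (le_max_right _ _)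
  refine ⟨C, hC2', ?_⟩
  intro p n J r hp hp1 hphi hn h2J hvol hJ F
  have hp' : 0 ≤ p := hp0.le.trans hp
  set Λ := edgesIn G F with hΛ
  set U := F.filter (fun z => ballF G z n ⊆ F) with hU
  obtain ⟨hm2, hmn, hq0, hqm, hinv, hmn'⟩ := sqrt_facts hn
  set m := Nat.sqrt n with hmdef
  have hUF : U ⊆ F := Finset.filter_subset _ _
  have hnn : n + 2 ^ J ≤ n ^ 2 := by nlinarith
  have hnR : (4 : ℝ) ≤ n := by exact_mod_cast hn
  have hn0 : (0 : ℝ) < n := by linarith
  have hΛF : ∀ e ∈ Λ, ∀ v ∈ e, v ∈ F := fun e he => (mem_edgesIn.1 he).2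
  have hker := fun j => (walk G hd1 hd U j).1
  have hbig : ∀ z ∈ U, c0 ≤ Ex p Λ (big n z) := by
    intro z hz
    rw [hΛ, Ex_big_local hG p (Finset.mem_filter.1 hz).2]
    exact hphi z
  have hbigm : ∀ z ∈ U, c0 ≤ Ex p Λ (big m z) := fun z hz =>
    (hbig z hz).trans (Ex_mono hp' hp1 fun S _ => big_anti hmn z S)
  -- the ladder
  have hlad := H1 p hp hp1 F U Λ hUF hΛF (card_edgesIn_le_mul hd F) (kM G d U)
    (kM_nonneg G hd1 hd U)
    (by
      intro x y
      by_cases hxy : x ∈ U ∧ y ∈ U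
      · exact (Finset.single_le_sum (f := fun y => kM G d U x y)
          (fun y _ => kM_nonneg G hd1 hd U x y) hxy.2).trans ((kM_ker G hd1 hd U).2.1 x hxy.1)
      · unfold kM
        rw [if_neg hxy]
        norm_num)
    (by
      intro x y hxy h
      unfold kM at h
      split_ifs at h with h1 h2
      · exact mk_mem_edgesIn.2 ⟨h2, hUF h1.1, hUF h1.2⟩
      · exact absurd rfl h
      · exact absurd rfl h)
    hker m J hm2 hbigm
  -- the heat kernel
  have hκ : ∀ x y, qq U (kM G d U) J x y ≤ 1 / (n : ℝ) ^ 3 := by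
    apply H2 U (1 / (n : ℝ) ^ 3) r J (by positivity)
    · rw [div_le_one (by positivity)]
      exact one_le_pow₀ (by linarith)
    · intro x
      have h1 := hvol x
      have h2 : (8 : ℝ) / (1 / (n : ℝ) ^ 3) = ((8 * n ^ 3 : ℕ) : ℝ) := by
        push_cast
        field_simp
      rw [h2]
      exact_mod_cast h1
    · refine le_trans ?_ hJ
      have h1 : Real.log (1 / (1 / (n : ℝ) ^ 3)) = 3 * Real.log n := by
        rw [one_div_one_div, Real.log_pow]
        norm_num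
      rw [h1]
      have h2 : 0 ≤ Real.log n := Real.log_nonneg (by linarith)
      have h3 : C2 * (r : ℝ) ^ 2 * (1 + 3 * Real.log n) ≤
          C2 * (r : ℝ) ^ 2 * (3 * (1 + Real.log n)) := by
        apply mul_le_mul_of_nonneg_left _ (by positivity)
        linarith
      refine h3.trans ?_
      have h4 : 0 ≤ (r : ℝ) ^ 2 * (1 + Real.log n) := by positivity
      nlinarith
  -- the window
  have hn1 : 1 / (n : ℝ) ≤ 1 := by
    rw [div_le_one hn0]; linarith
  have hn2 : 1 / (n : ℝ) ^ 2 ≤ 1 := by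
    rw [div_le_one (by positivity)]
    exact one_le_pow₀ (by linarith)
  have hwin := hW p hp' hp1 F U Λ hUF hΛF (qq U (kM G d U) J) (hker J) (1 / (n : ℝ) ^ 3) hκ
    (1 / n) (1 / (n : ℝ) ^ 2) (1 / n) (c0 / 2) (by positivity) hn1 (by positivity) hn2
    (by positivity) hn1 (by positivity)
    (fun b hb => gh_ge_of_big hp' hp1 Λ (by omega) le_rfl b (hbig b hb)) m
  have hlow : ∑ o ∈ F.filter (fun o => ballF G o (n ^ 2) ⊆ F),
      Ex p Λ (ww (1 / (n : ℝ) ^ 2) (1 / n) o) ≤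
      ∑ o ∈ U, (∑ b ∈ U, qq U (kM G d U) J o b) * Ex p Λ (ww (1 / (n : ℝ) ^ 2) (1 / n) o) := by
    have hww : ∀ o, 0 ≤ Ex p Λ (ww (1 / (n : ℝ) ^ 2) (1 / n) o) := by
      intro o
      apply Ex_nonneg hp' hp1
      intro S _
      exact ww_nonneg (by positivity) hn2 (by positivity) hn1 o S
    have hsub : F.filter (fun o => ballF G o (n ^ 2) ⊆ F) ⊆ U := by
      intro o ho
      rw [Finset.mem_filter] at ho
      rw [hU, Finset.mem_filter]
      exact ⟨ho.1, (ballF_mono G o (by nlinarith)).trans ho.2⟩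
    calc ∑ o ∈ F.filter (fun o => ballF G o (n ^ 2) ⊆ F),
          Ex p Λ (ww (1 / (n : ℝ) ^ 2) (1 / n) o)
        = ∑ o ∈ F.filter (fun o => ballF G o (n ^ 2) ⊆ F), (∑ b ∈ U, qq U (kM G d U) J o b) *
          Ex p Λ (ww (1 / (n : ℝ) ^ 2) (1 / n) o) := by
          apply Finset.sum_congr rfl
          intro o ho
          rw [Finset.mem_filter] at ho
          rw [(walk G hd1 hd U J).2 o, one_mul]
          intro z hz
          rw [hU, Finset.mem_filter]
          have h5 : ballF G z n ⊆ ballF G o (n ^ 2) := by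
            intro w hw
            exact ballF_mono G o hnn (ballF_add G hw hz)
          exact ⟨ho.2 (ballF_mono G o (by omega) hz), h5.trans ho.2⟩
      _ ≤ _ := by
          apply Finset.sum_le_sum_of_subset_of_nonneg hsub
          intro o ho _
          exact mul_nonneg (Finset.sum_nonneg fun b _ => (hker J).1 o b) (hww o)
  exact final_calc hc0 hC1 hCC1 hCcc (Nat.cast_nonneg _) hnR (Nat.cast_nonneg _) hq0 hinv hmn'
    hlow hwin hlad hqm

open Classical in
/-- **The drop of the tail.** -/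
theorem drop2 [Infinite V] (hT : TCS V) (hG : G.Connected) {R : Finset V}
    (hR : ∀ x : V, ∃ g : G ≃g G, g x ∈ R) (hAm : IsAmenable G) : Drop2Stmt G := by
  obtain ⟨d, hd1, hd⟩ : ∃ d : ℕ, 1 ≤ d ∧ ∀ v, G.degree v ≤ d := by
    obtain ⟨b, hb1, hb⟩ := ball_bound hG (reps' hR) 1
    refine ⟨b, hb1, fun v => le_trans ?_ (hb v)⟩
    rw [← SimpleGraph.card_neighborFinset_eq_degree]
    apply Finset.card_le_card
    intro w hw
    rw [SimpleGraph.mem_neighborFinset] at hw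
    rw [mem_ballF_iff hG, SimpleGraph.dist_comm]
    exact (SimpleGraph.dist_eq_one_iff_adj.2 hw).le
  intro p0 c0 hp0 hc0
  obtain ⟨C, hC2, hC⟩ := drop_core2 hG hd1 hd hT (ladder0 varStmt Th.thLow) windowStmt
    (H820.heat hG hR hAm hd1 hd) p0 c0 hp0 hc0
  obtain ⟨c, hc, D, hcD⟩ := orbit_count hG hR
  have hC0 : 0 ≤ C := by linarith
  set C' : ℝ := max C (8 * C / c) with hC'
  have hCC' : C ≤ C' := le_max_left _ _
  have h8C : 8 * C / c ≤ C' := le_max_right _ _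
  have hC'2 : 2 ≤ C' := hC2.trans hCC'
  refine ⟨C', by linarith, ?_⟩
  intro p n J r hp hp1 hphi hn hr hJ x
  have h0 : 0 ≤ p := hp0.le.trans hp
  have hn2 : n ≤ n ^ 2 := by nlinarith
  have hnR : (1 : ℝ) ≤ n := by exact_mod_cast (by omega : 1 ≤ n)
  have hlog : 0 ≤ Real.log n := Real.log_nonneg hnR
  have hs1 : 1 ≤ Real.sqrt n := by rw [Real.one_le_sqrt]; exact hnR
  have hs0 : 0 < Real.sqrt n := by linarith
  have hss : Real.sqrt n * Real.sqrt n = n := Real.mul_self_sqrt (by linarith)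
  have hq1 : 1 ≤ Real.sqrt (Real.sqrt n) := by rw [Real.one_le_sqrt]; exact hs1
  have hq0 : 0 < Real.sqrt (Real.sqrt n) := by linarith
  have hqq : Real.sqrt (Real.sqrt n) * Real.sqrt (Real.sqrt n) = Real.sqrt n :=
    Real.mul_self_sqrt hs0.le
  have ht1 : phiB G n x p - phiB G (n ^ 2) x p ≤ 1 := by
    have e1 : phiB G n x p ≤ 1 := phiB_le_one h0 hp1 n x
    have e2 : 0 ≤ phiB G (n ^ 2) x p := phiB_nonneg h0 hp1 (n ^ 2) x
    linarith
  by_cases hn4 : 4 ≤ n
  swap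
  · refine ht1.trans ?_
    rw [le_div_iff₀ hq0, one_mul]
    have h3 : (n : ℝ) ≤ 4 := by exact_mod_cast (by omega : n ≤ 4)
    have h4 : Real.sqrt (Real.sqrt n) ≤ 2 := by
      have e1 : Real.sqrt (Real.sqrt n) ≤ Real.sqrt n := by nlinarith
      have e2 : Real.sqrt n ≤ 2 := by
        apply (Real.sqrt_le_left (by norm_num)).2
        linarith
      linarith
    have h5 : 1 ≤ C' ^ J := one_le_pow₀ (by linarith)
    nlinarith
  by_cases h2J : 2 ^ J ≤ n
  swap
  · refine ht1.trans ?_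
    rw [le_div_iff₀ hq0, one_mul]
    have h3 : (n : ℝ) ≤ 2 ^ J := by exact_mod_cast (by omega : n ≤ 2 ^ J)
    have h4 : (2 : ℝ) ^ J ≤ C' ^ J := pow_le_pow_left₀ (by norm_num) hC'2 J
    have h5 : Real.sqrt (Real.sqrt n) ≤ n := by nlinarith
    have h6 : 0 ≤ C' ^ J := by positivity
    nlinarith
  have hJ' : C * r ^ 2 * (1 + Real.log n) ≤ 2 ^ J := by
    refine le_trans ?_ hJ
    apply mul_le_mul_of_nonneg_right _ (by linarith)
    exact mul_le_mul_of_nonneg_right hCC' (by positivity)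
  have hmain := hC p n J r hp hp1 hphi hn4 h2J hr hJ'
  obtain ⟨F, hFne, hF⟩ := foelner_deep hG hR hAm (D + n ^ 2) (δ := 1 / 2) (by norm_num)
  have hF0 : (0 : ℝ) < F.card := by exact_mod_cast hFne.card_pos
  set P := F.filter fun v => (∃ g : G ≃g G, g x = v) ∧ ballF G v (n ^ 2) ⊆ F with hP
  have hcP : c * F.card ≤ P.card := hcD x (n ^ 2) F hF
  set t := phiB G n x p - phiB G (n ^ 2) x p with ht
  have ht0 : 0 ≤ t := by
    have := phiB_anti hG h0 hp1 hn2 x
    rw [ht]; linarith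
  have e1 : 1 / (n : ℝ) ≤ 1 := by rw [div_le_one (by linarith)]; exact hnR
  have e2 : 1 / (n : ℝ) ^ 2 ≤ 1 := by
    rw [div_le_one (by positivity)]; exact one_le_pow₀ hnR
  have hsum : ∑ o ∈ P, Ex p (edgesIn G F) (ww (1 / (n : ℝ) ^ 2) (1 / n) o) ≤
      C * C ^ J / Real.sqrt (Real.sqrt n) * F.card := by
    refine le_trans ?_ (hmain F)
    apply Finset.sum_le_sum_of_subset_of_nonneg
    · intro o ho
      rw [hP, Finset.mem_filter] at ho
      rw [Finset.mem_filter]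
      exact ⟨ho.1, ho.2.2⟩
    · intro o _ _
      exact Ex_nonneg h0 hp1 fun S _ =>
        ww_nonneg (by positivity) e2 (by positivity) e1 o S
  set E : ℝ := C ^ J / Real.sqrt (Real.sqrt n) with hE
  have hE0 : 0 ≤ E := by rw [hE]; positivity
  have hCE : C * C ^ J / Real.sqrt (Real.sqrt n) = C * E := by rw [hE]; ring
  rw [hCE] at hsum
  have hlow : c * F.card * t ≤ 8 * ∑ o ∈ P, Ex p (edgesIn G F) (ww (1 / (n : ℝ) ^ 2) (1 / n) o) := by
    calc c * F.card * t ≤ P.card * t := mul_le_mul_of_nonneg_right hcP ht0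
      _ = ∑ v ∈ P, t := by rw [Finset.sum_const, nsmul_eq_mul]
      _ = ∑ v ∈ P, Ex p (edgesIn G F) (fun S => big n v S - big (n ^ 2) v S) := by
          apply Finset.sum_congr rfl
          intro v hv
          rw [hP, Finset.mem_filter] at hv
          obtain ⟨_, ⟨g, rfl⟩, hb⟩ := hv
          rw [Ex_sub, Ex_big_local hG p ((ballF_mono G _ hn2).trans hb), Ex_big_local hG p hb,
            phiB_aut hG g h0 hp1, phiB_aut hG g h0 hp1, ht]
      _ ≤ ∑ v ∈ P, 8 * Ex p (edgesIn G F) (ww (1 / (n : ℝ) ^ 2) (1 / n) v) := by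
          apply Finset.sum_le_sum
          intro v _
          rw [← Ex_const_mul]
          exact Ex_mono h0 hp1 fun S _ => big_sub_le_ww hn v S
      _ = _ := by rw [Finset.mul_sum]
  have h9 : c * F.card * t ≤ 8 * (C * E * F.card) := hlow.trans (by linarith)
  have h10 : c * t ≤ 8 * C * E := by
    have h11 : F.card * (c * t) ≤ F.card * (8 * C * E) := by linarith
    exact le_of_mul_le_mul_left h11 hF0
  have h12 : t ≤ 8 * C / c * E := by
    rw [div_mul_eq_mul_div, le_div_iff₀ hc]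
    linarith
  refine h12.trans ?_
  have h13 : E ≤ C' ^ J / Real.sqrt (Real.sqrt n) := by
    rw [hE]
    apply div_le_div_of_nonneg_right _ hq0.le
    exact pow_le_pow_left₀ hC0 hCC' J
  calc 8 * C / c * E ≤ C' * (C' ^ J / Real.sqrt (Real.sqrt n)) :=
        mul_le_mul h8C h13 hE0 (hC0.trans hCC')
    _ = _ := by rw [mul_div_assoc]

end Vale.Agent.P151.TC.H256
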