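import Vale.Agent.P151.QP.Defs

/-!
# The quasi-triangle inequality and the drop of the tail: statements
-/

set_option autoImplicit false
set_option linter.unusedSectionVars false

open Finset SimpleGraph

namespace Vale.Agent.P151.TC.H256

open Vale.Agent.P151 Vale.Agent.P151.QP Vale.Agent.P151.R2.H279

universe u

/-- The quasi-triangle inequality for `PD`: `P(z big) P(x, y big, x not<-> y)` is at most a
constant times the sum of the same for `x, z` and `z, y`. -/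
def TCS (V : Type u) [DecidableEq V] : Prop :=
  ∃ C0 : ℝ, 1 ≤ C0 ∧ ∀ (p : ℝ), 0 ≤ p → p ≤ 1 → ∀ (Λ : Finset (Sym2 V)) (n : ℕ) (x y z : V),
    Ex p Λ (big n z) * PD p Λ n x y ≤ C0 * (PD p Λ n x z + PD p Λ n z y)

/-- Theorem (TC) for the property `n ≤ |K|`. -/
def TCStmt (V : Type u) [DecidableEq V] : Prop :=
  ∀ (p : ℝ), 0 ≤ p → p ≤ 1 → ∀ (Λ : Finset (Sym2 V)) (n : ℕ) (x y z : V),
    PD p Λ n x y * Ex p Λ (fun S => I1 (n ≤ csz S z)) ≤
      11 * Ex p Λ (fun S => DD n x y S * I1 (n ≤ csz S z))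

/-- The drop of the tail between `n` and `n ^ 2`, without parameters. -/
def Drop2Stmt {V : Type u} [DecidableEq V] (G : SimpleGraph V) [G.LocallyFinite] : Prop :=
  ∀ (p0 c0 : ℝ), 0 < p0 → 0 < c0 → ∃ C : ℝ, 1 ≤ C ∧ ∀ (p : ℝ) (n J r : ℕ), p0 ≤ p → p ≤ 1 →
    (∀ x, c0 ≤ phiB G n x p) → 2 ≤ n → (∀ x, 8 * n ^ 3 ≤ (ballF G x r).card) →
    C * r ^ 2 * (1 + Real.log n) ≤ 2 ^ J →
    ∀ x, phiB G n x p - phiB G (n ^ 2) x p ≤ C * C ^ J / Real.sqrt (Real.sqrt n)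

variable {V : Type u} [DecidableEq V]

lemma I1_big (n : ℕ) (z : V) : (fun S : Finset (Sym2 V) => I1 (n ≤ csz S z)) = big n z := by
  funext S
  unfold I1 big
  congr

theorem tcs_of_tc (h : TCStmt V) : TCS V := by
  refine ⟨11, by norm_num, ?_⟩
  intro p h0 h1 Λ n x y z
  have h2 := h p h0 h1 Λ n x y z
  rw [I1_big] at h2
  rw [mul_comm]
  refine h2.trans ?_
  apply mul_le_mul_of_nonneg_left _ (by norm_num)
  unfold PD
  rw [← Ex_add]
  apply Ex_mono h0 h1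
  intro S _
  unfold DD
  rw [← I1_and]
  by_cases hxz : Cn S x z
  · by_cases hzy : Cn S z y
    · rw [I1_false]
      · exact add_nonneg (I1_nonneg _) (I1_nonneg _)
      · rintro ⟨⟨h3, _⟩, _⟩
        exact h3 (hxz.trans hzy)
    · refine le_trans (I1_mono ?_) (le_add_of_nonneg_left (I1_nonneg _))
      rintro ⟨⟨_, _, h4⟩, h5⟩
      exact ⟨hzy, h5, h4⟩
  · refine le_trans (I1_mono ?_) (le_add_of_nonneg_right (I1_nonneg _))
    rintro ⟨⟨_, h3, _⟩, h5⟩
    exact ⟨hxz, h3, h5⟩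

end Vale.Agent.P151.TC.H256
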