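import Vale.Agent.P151.TC.H256.Defs
import Vale.Agent.P151.QP.Iter

/-!
# The ladder from the quasi-triangle inequality
-/

set_option autoImplicit false
set_option linter.unusedSectionVars false

open Finset SimpleGraph

namespace Vale.Agent.P151.TC.H256

open Vale.Agent.P151 Vale.Agent.P151.QP Vale.Agent.P151.R2.H279

universe u
variable {V : Type u} [DecidableEq V]

/-- One doubling of the kernel. -/
lemma kc_le {U : Finset V} {A B : V → V → ℝ} (hA : Ker U A) (hB : Ker U B) {f : V → V → ℝ}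
    (hf : ∀ x y, 0 ≤ f x y) {b : V → ℝ} {c0 C0 : ℝ} (hC0 : 0 ≤ C0)
    (hb : ∀ z ∈ U, c0 ≤ b z) (hT : ∀ x y z, b z * f x y ≤ C0 * (f x z + f z y)) :
    c0 * ∑ x ∈ U, ∑ y ∈ U, kc U A B x y * f x y ≤
      C0 * (∑ x ∈ U, ∑ y ∈ U, A x y * f x y + ∑ x ∈ U, ∑ y ∈ U, B x y * f x y) := by
  have h1 : c0 * ∑ x ∈ U, ∑ y ∈ U, kc U A B x y * f x y =
      ∑ x ∈ U, ∑ y ∈ U, ∑ z ∈ U, A x z * B z y * (c0 * f x y) := by
    rw [Finset.mul_sum]
    apply Finset.sum_congr rfl; intro x _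
    rw [Finset.mul_sum]
    apply Finset.sum_congr rfl; intro y _
    unfold kc
    rw [Finset.sum_mul, Finset.mul_sum]
    apply Finset.sum_congr rfl; intro z _
    ring
  have h2 : ∑ x ∈ U, ∑ y ∈ U, ∑ z ∈ U, A x z * B z y * (c0 * f x y) ≤
      ∑ x ∈ U, ∑ y ∈ U, ∑ z ∈ U, A x z * B z y * (C0 * (f x z + f z y)) := by
    apply Finset.sum_le_sum; intro x _
    apply Finset.sum_le_sum; intro y _
    apply Finset.sum_le_sum; intro z hz
    apply mul_le_mul_of_nonneg_left _ (mul_nonneg (hA.1 x z) (hB.1 z y))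
    exact (mul_le_mul_of_nonneg_right (hb z hz) (hf x y)).trans (hT x y z)
  have h3 : ∑ x ∈ U, ∑ y ∈ U, ∑ z ∈ U, A x z * B z y * (C0 * (f x z + f z y)) =
      C0 * (∑ x ∈ U, ∑ y ∈ U, ∑ z ∈ U, A x z * B z y * f x z +
        ∑ x ∈ U, ∑ y ∈ U, ∑ z ∈ U, A x z * B z y * f z y) := by
    rw [← Finset.sum_add_distrib, Finset.mul_sum]
    apply Finset.sum_congr rfl; intro x _
    rw [← Finset.sum_add_distrib, Finset.mul_sum]
    apply Finset.sum_congr rfl; intro y _
    rw [← Finset.sum_add_distrib, Finset.mul_sum]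
    apply Finset.sum_congr rfl; intro z _
    ring
  have h4 : ∑ x ∈ U, ∑ y ∈ U, ∑ z ∈ U, A x z * B z y * f x z ≤
      ∑ x ∈ U, ∑ y ∈ U, A x y * f x y := by
    apply Finset.sum_le_sum; intro x _
    rw [Finset.sum_comm]
    apply Finset.sum_le_sum; intro z hz
    have : ∑ y ∈ U, A x z * B z y * f x z = (∑ y ∈ U, B z y) * (A x z * f x z) := by
      rw [Finset.sum_mul]
      apply Finset.sum_congr rfl; intro y _
      ring
    rw [this]
    exact mul_le_of_le_one_left (mul_nonneg (hA.1 x z) (hf x z)) (hB.2.1 z hz)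
  have h5 : ∑ x ∈ U, ∑ y ∈ U, ∑ z ∈ U, A x z * B z y * f z y ≤
      ∑ x ∈ U, ∑ y ∈ U, B x y * f x y := by
    have e : ∑ x ∈ U, ∑ y ∈ U, ∑ z ∈ U, A x z * B z y * f z y =
        ∑ z ∈ U, ∑ y ∈ U, (∑ x ∈ U, A x z) * (B z y * f z y) := by
      calc ∑ x ∈ U, ∑ y ∈ U, ∑ z ∈ U, A x z * B z y * f z y
          = ∑ x ∈ U, ∑ z ∈ U, ∑ y ∈ U, A x z * B z y * f z y := by
            apply Finset.sum_congr rfl; intro x _
            exact Finset.sum_comm
        _ = ∑ z ∈ U, ∑ x ∈ U, ∑ y ∈ U, A x z * B z y * f z y := Finset.sum_comm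
        _ = ∑ z ∈ U, ∑ y ∈ U, ∑ x ∈ U, A x z * B z y * f z y := by
            apply Finset.sum_congr rfl; intro z _
            exact Finset.sum_comm
        _ = _ := by
            apply Finset.sum_congr rfl; intro z _
            apply Finset.sum_congr rfl; intro y _
            rw [Finset.sum_mul]
            apply Finset.sum_congr rfl; intro x _
            ring
    rw [e]
    apply Finset.sum_le_sum; intro z hz
    apply Finset.sum_le_sum; intro y _
    exact mul_le_of_le_one_left (mul_nonneg (hB.1 z y) (hf z y)) (hA.2.2 z hz)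
  rw [h1]
  refine h2.trans ?_
  rw [h3]
  exact mul_le_mul_of_nonneg_left (add_le_add h4 h5) hC0

/-- The iterated ladder at a fixed scale. -/
theorem ladder_iter2 (hT : TCS V) (hL0 : Stmts.Ladder0Stmt V) {p0 c0 : ℝ}
    (hp0 : 0 < p0) (hc0 : 0 < c0) (d : ℕ) (hd : 1 ≤ d) :
    ∃ C : ℝ, 1 ≤ C ∧ ∀ (p : ℝ), p0 ≤ p → p ≤ 1 →
      ∀ (F U : Finset V) (Λ : Finset (Sym2 V)), U ⊆ F → (∀ e ∈ Λ, ∀ v ∈ e, v ∈ F) →
      Λ.card ≤ d * F.card →
      ∀ M : V → V → ℝ, (∀ x y, 0 ≤ M x y) → (∀ x y, M x y ≤ 1) →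
      (∀ x y, x ≠ y → M x y ≠ 0 → s(x, y) ∈ Λ) → (∀ j, Ker U (qq U M j)) →
      ∀ (m J : ℕ), 2 ≤ m → (∀ z ∈ U, c0 ≤ Ex p Λ (big m z)) →
      ∑ x ∈ U, ∑ y ∈ U, qq U M J x y * PD p Λ m x y ≤
        C ^ (J + 1) / Real.sqrt m * F.card := by
  obtain ⟨C1, hC1, H1⟩ := hT
  obtain ⟨C2, hC2, H2⟩ := hL0
  set K : ℝ := max 1 (2 * C1 / c0) with hK
  set B : ℝ := C2 * d / p0 with hB
  have hdr : (1 : ℝ) ≤ d := by exact_mod_cast hd
  have hK1 : 1 ≤ K := le_max_left _ _
  have hB0 : 0 ≤ B := by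
    rw [hB]
    apply div_nonneg _ hp0.le
    apply mul_nonneg <;> linarith
  refine ⟨max K B, le_trans hK1 (le_max_left _ _), ?_⟩
  intro p hp0p hp1 F U Λ hUF hΛF hcard M hM0 hM1 hMΛ hKer m J hm hbig
  have hp : 0 ≤ p := hp0.le.trans hp0p
  have hF0 : (0 : ℝ) ≤ F.card := Nat.cast_nonneg _
  have hs0 : 0 < Real.sqrt m := Real.sqrt_pos.2 (by positivity)
  set e : ℕ → ℝ := fun j => ∑ x ∈ U, ∑ y ∈ U, qq U M j x y * PD p Λ m x y with he
  have he0 : ∀ j, 0 ≤ e j := by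
    intro j
    apply Finset.sum_nonneg; intro x _
    apply Finset.sum_nonneg; intro y _
    exact mul_nonneg ((hKer j).1 x y) (PD_nonneg hp hp1 Λ _ x y)
  have hbase : e 0 ≤ B * (F.card / Real.sqrt m) := by
    have h := H2 p hp hp1 F U Λ d hd hUF hΛF hcard M hM0 hM1 hMΛ m hm
    have h' : p0 * e 0 ≤ C2 * d * F.card / Real.sqrt m := by
      refine le_trans (mul_le_mul_of_nonneg_right hp0p (he0 0)) ?_
      simpa [he, qq] using h
    have : e 0 ≤ (C2 * d * F.card / Real.sqrt m) / p0 := by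
      rw [le_div_iff₀ hp0]; linarith
    refine this.trans (le_of_eq ?_)
    rw [hB]; field_simp
  have hstep : ∀ j, e (j + 1) ≤ K * e j := by
    intro j
    have h := kc_le (hKer j) (hKer j) (fun x y => PD_nonneg hp hp1 Λ m x y)
      (by linarith : (0 : ℝ) ≤ C1) hbig (fun x y z => H1 p hp hp1 Λ m x y z)
    have h' : c0 * e (j + 1) ≤ C1 * (e j + e j) := h
    have h2 : e (j + 1) ≤ 2 * C1 / c0 * e j := by
      rw [div_mul_eq_mul_div, le_div_iff₀ hc0]
      linarith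
    exact h2.trans (mul_le_mul_of_nonneg_right (le_max_right _ _) (he0 j))
  have hind : ∀ j, e j ≤ K ^ j * (B * (F.card / Real.sqrt m)) := by
    intro j
    induction j with
    | zero => simpa using hbase
    | succ j ih =>
      calc e (j + 1) ≤ K * e j := hstep j
        _ ≤ K * (K ^ j * (B * (F.card / Real.sqrt m))) :=
            mul_le_mul_of_nonneg_left ih (by linarith)
        _ = _ := by rw [pow_succ]; ring
  refine (hind J).trans ?_
  set C : ℝ := max K B with hC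
  have hCK : K ≤ C := le_max_left _ _
  have hCB : B ≤ C := le_max_right _ _
  have hC0 : 0 ≤ C := by linarith
  have h2 : K ^ J ≤ C ^ J := pow_le_pow_left₀ (by linarith) hCK J
  have hFm : 0 ≤ (F.card : ℝ) / Real.sqrt m := by positivity
  calc K ^ J * (B * (F.card / Real.sqrt m)) ≤ C ^ J * (C * (F.card / Real.sqrt m)) := by
        apply mul_le_mul h2 _ (by positivity) (by positivity)
        exact mul_le_mul_of_nonneg_right hCB hFm
    _ = _ := by rw [pow_succ]; ring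

end Vale.Agent.P151.TC.H256
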